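import Vale.Agent.P275.H341.Psh

/-! # Row A2: the degree of the hook polynomials -/

namespace Vale.Agent.P275.R2.H911

open Filter Topology Asymptotics Vale.Agent.P275.H341

def row1 (k : ℕ) : Fin k → ℕ := fun i => if (i : ℕ) = 0 then k else 0

theorem two_sum (l : ℕ) : 2 * ∑ t ∈ Finset.range l, (t + 1) = l * (l + 1) := by
  induction l with
  | zero => simp
  | succ l ih => rw [Finset.sum_range_succ, mul_add, ih]; ring

theorem two_choose (k : ℕ) : ∑ j ∈ Finset.range k, j * (j - 1) = 2 * Nat.choose k 3 := by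
  induction k with
  | zero => simp
  | succ k ih =>
    have h2 : 2 * Nat.choose k 2 = k * (k - 1) := by
      rw [Nat.choose_two_right]
      exact Nat.mul_div_cancel' (Nat.even_mul_pred_self k).two_dvd
    have h3 : Nat.choose (k + 1) 3 = Nat.choose k 2 + Nat.choose k 3 := Nat.choose_succ_succ' k 2
    rw [Finset.sum_range_succ, ih, h3, mul_add, h2]
    omega

theorem exps {k : ℕ} {lam : Fin k → ℕ} (hl : lam ∈ Pt k) (hne : lam ≠ row1 k) :
    Nat.choose k 3 + ∑ i : Fin k, ∑ t ∈ Finset.range (lam i + (k - 1 - i)), (t + 1) ≤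
      (k * (k + 1) / 2 - 1) + ∑ i : Fin k, (lam i + (k - 1 - i)) * (k - 1 - i) := by
  rw [Pt, Finset.mem_filter, Finset.Nat.mem_antidiagonalTuple] at hl
  obtain ⟨hs, ha⟩ := hl
  have hk0 : 0 < k := by
    rcases Nat.eq_zero_or_pos k with rfl | h
    · exact absurd (funext fun i => i.elim0) hne
    · exact h
  have hlt : lam ⟨0, hk0⟩ ≤ k - 1 := by
    by_contra hc
    apply hne
    have h0 : lam ⟨0, hk0⟩ ≤ k := by
      exact (Finset.single_le_sum (f := lam) (fun _ _ => Nat.zero_le _)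
        (Finset.mem_univ _)).trans hs.le
    have h1 : lam ⟨0, hk0⟩ = k := by omega
    have h2 := Finset.add_sum_erase Finset.univ lam (Finset.mem_univ ⟨0, hk0⟩)
    rw [hs, h1] at h2
    have h3 : ∑ i ∈ Finset.univ.erase ⟨0, hk0⟩, lam i = 0 := by omega
    rw [Finset.sum_eq_zero_iff] at h3
    funext i
    by_cases hi : (i : ℕ) = 0
    · have : i = ⟨0, hk0⟩ := Fin.ext hi
      rw [this, h1]
      simp [row1]
    · rw [h3 i (Finset.mem_erase.2 ⟨fun h => hi (by rw [h]), Finset.mem_univ _⟩)]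
      simp [row1, hi]
  have hk2 : 2 ≤ k := by
    by_contra hc
    have hk1 : k = 1 := by omega
    subst hk1
    have h1 : lam ⟨0, hk0⟩ = 1 := by
      have h2 := hs
      rw [Fin.sum_univ_one] at h2
      exact h2
    omega
  have hsq : ∑ i, lam i * (lam i + 1) ≤ k * k := by
    calc ∑ i, lam i * (lam i + 1) ≤ ∑ i, lam i * (k - 1 + 1) := by
          refine Finset.sum_le_sum fun i _ => Nat.mul_le_mul_left _ ?_
          have := ha ⟨0, hk0⟩ i (Fin.mk_le_mk.2 (Nat.zero_le _))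
          omega
      _ = k * k := by rw [← Finset.sum_mul, hs]; congr 1; omega
  have hid : ∀ i : Fin k, 2 * ∑ t ∈ Finset.range (lam i + (k - 1 - i)), (t + 1) +
      (k - 1 - i) * (k - 1 - i - 1) = 2 * ((lam i + (k - 1 - i)) * (k - 1 - i)) +
        lam i * (lam i + 1) := by
    intro i
    rw [two_sum]
    generalize k - 1 - (i : ℕ) = c
    rcases c with _ | c
    · simp
    · rw [Nat.add_sub_cancel]; ring
  have hsum := Finset.sum_congr (s₁ := (Finset.univ : Finset (Fin k))) rfl fun i _ => hid i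
  rw [Finset.sum_add_distrib, Finset.sum_add_distrib, ← Finset.mul_sum, ← Finset.mul_sum] at hsum
  have hch : ∑ i : Fin k, (k - 1 - (i : ℕ)) * (k - 1 - i - 1) = 2 * Nat.choose k 3 := by
    rw [Fin.sum_univ_eq_sum_range (fun j => (k - 1 - j) * (k - 1 - j - 1)) k,
      Finset.sum_range_reflect (fun j => j * (j - 1)) k, two_choose]
  rw [hch] at hsum
  have hev : 2 * (k * (k + 1) / 2) = k * (k + 1) :=
    Nat.mul_div_cancel' (Nat.even_mul_succ_self k).two_dvd
  have hkk : k * k + k = k * (k + 1) := by ring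
  omega

theorem rowA2 {k d : ℕ} (hd : 1 ≤ d) {lam : Fin k → ℕ} (hl : lam ∈ Pt k) (hne : lam ≠ row1 k) :
    (fun x : ℝ => hk ((x : ℂ) ^ d) lam) =O[atTop] fun x : ℝ => x ^ (d * (k * (k + 1) / 2 - 1)) := by
  have hE := exps hl hne
  have hanti : ∀ i j : Fin k, i < j → lam j + (k - 1 - j) + 1 ≤ lam i + (k - 1 - i) := by
    rw [Pt, Finset.mem_filter] at hl
    intro i j hij
    have h1 := hl.2 i j hij.le
    have h2 : (i : ℕ) < j := hij
    have h3 := j.2
    omega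
  set S3 : ℕ := ∑ i : Fin k, (k - 1 - (i : ℕ)) with hS3
  refine IsBigO.of_bound ((2 : ℝ) ^ S3) ?_
  filter_upwards [eventually_ge_atTop (2 : ℝ)] with x hx
  set r : ℝ := x ^ d with hr
  have hr2 : 2 ≤ r := by
    calc (2 : ℝ) ≤ x := hx
      _ = x ^ 1 := (pow_one x).symm
      _ ≤ x ^ d := pow_le_pow_right₀ (by linarith) hd
  have hr0 : 0 < r := by linarith
  have hq : ((x : ℂ) ^ d) = ((r : ℝ) : ℂ) := by rw [hr]; push_cast; rfl
  rw [hq]
  have hn1 : ∀ t : ℕ, ‖((r : ℝ) : ℂ) ^ (t + 1) - 1‖ ≤ r ^ (t + 1) := by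
    intro t
    have e : ((r : ℝ) : ℂ) ^ (t + 1) - 1 = ((r ^ (t + 1) - 1 : ℝ) : ℂ) := by push_cast; rfl
    have h1 : 1 ≤ r ^ (t + 1) := one_le_pow₀ (by linarith)
    rw [e, Complex.norm_real, Real.norm_of_nonneg (by linarith)]
    linarith
  have hn2 : ∀ i j : Fin k, i < j → r ^ (lam i + (k - 1 - i)) / 2 ≤
      ‖((r : ℝ) : ℂ) ^ (lam i + (k - 1 - i)) - ((r : ℝ) : ℂ) ^ (lam j + (k - 1 - j))‖ := by
    intro i j hij
    have e : ((r : ℝ) : ℂ) ^ (lam i + (k - 1 - i)) - ((r : ℝ) : ℂ) ^ (lam j + (k - 1 - j)) =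
        ((r ^ (lam i + (k - 1 - i)) - r ^ (lam j + (k - 1 - j)) : ℝ) : ℂ) := by push_cast; rfl
    have h1 : r ^ (lam j + (k - 1 - j)) * 2 ≤ r ^ (lam i + (k - 1 - i)) := by
      calc r ^ (lam j + (k - 1 - j)) * 2 ≤ r ^ (lam j + (k - 1 - j)) * r := by gcongr
        _ = r ^ (lam j + (k - 1 - j) + 1) := (pow_succ _ _).symm
        _ ≤ _ := pow_le_pow_right₀ (by linarith) (hanti i j hij)
    rw [e, Complex.norm_real]
    refine le_trans ?_ (le_abs_self _)
    linarith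
  have hnum : ‖∏ i : Fin k, ∏ t ∈ Finset.range (lam i + (k - 1 - i)),
      (((r : ℝ) : ℂ) ^ (t + 1) - 1)‖ ≤
        r ^ (∑ i : Fin k, ∑ t ∈ Finset.range (lam i + (k - 1 - i)), (t + 1)) := by
    rw [norm_prod, ← Finset.prod_pow_eq_pow_sum]
    refine Finset.prod_le_prod (fun _ _ => norm_nonneg _) fun i _ => ?_
    rw [norm_prod, ← Finset.prod_pow_eq_pow_sum]
    exact Finset.prod_le_prod (fun _ _ => norm_nonneg _) fun t _ => hn1 t
  have hden : r ^ (∑ i : Fin k, (lam i + (k - 1 - i)) * (k - 1 - i)) / 2 ^ S3 ≤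
      ‖∏ i : Fin k, ∏ j ∈ Finset.Ioi i, (((r : ℝ) : ℂ) ^ (lam i + (k - 1 - i)) -
        ((r : ℝ) : ℂ) ^ (lam j + (k - 1 - j)))‖ := by
    rw [norm_prod, ← Finset.prod_pow_eq_pow_sum, hS3, ← Finset.prod_pow_eq_pow_sum,
      ← Finset.prod_div_distrib]
    refine Finset.prod_le_prod (fun _ _ => by positivity) fun i _ => ?_
    rw [norm_prod, pow_mul, ← div_pow]
    have hc : (Finset.Ioi i).card = k - 1 - (i : ℕ) := Fin.card_Ioi i
    have e : (r ^ (lam i + (k - 1 - (i : ℕ))) / 2) ^ (k - 1 - (i : ℕ)) =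
        ∏ _j ∈ Finset.Ioi i, (r ^ (lam i + (k - 1 - (i : ℕ))) / 2) := by
      rw [Finset.prod_const, hc]
    rw [e]
    exact Finset.prod_le_prod (fun _ _ => by positivity) fun j hj =>
      hn2 i j (Finset.mem_Ioi.1 hj)
  rw [hk, norm_div, norm_mul, norm_pow, Complex.norm_real, Real.norm_of_nonneg hr0.le,
    Real.norm_of_nonneg (by positivity : (0 : ℝ) ≤ x ^ (d * (k * (k + 1) / 2 - 1))), pow_mul, ← hr]
  have hdpos : 0 < r ^ (∑ i : Fin k, (lam i + (k - 1 - i)) * (k - 1 - i)) / 2 ^ S3 := by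
    positivity
  calc _ ≤ r ^ Nat.choose k 3 *
        r ^ (∑ i : Fin k, ∑ t ∈ Finset.range (lam i + (k - 1 - i)), (t + 1)) /
          (r ^ (∑ i : Fin k, (lam i + (k - 1 - i)) * (k - 1 - i)) / 2 ^ S3) := by
        gcongr
    _ ≤ 2 ^ S3 * r ^ (k * (k + 1) / 2 - 1) := by
        rw [div_le_iff₀ hdpos, ← pow_add]
        have e : 2 ^ S3 * r ^ (k * (k + 1) / 2 - 1) *
            (r ^ (∑ i : Fin k, (lam i + (k - 1 - i)) * (k - 1 - i)) / 2 ^ S3) =
            r ^ ((k * (k + 1) / 2 - 1) + ∑ i : Fin k, (lam i + (k - 1 - i)) * (k - 1 - i)) := by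
          rw [pow_add]; field_simp
        rw [e]
        exact pow_le_pow_right₀ (by linarith) hE

end Vale.Agent.P275.R2.H911
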